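import Vale.Agent.N209T.Main

namespace Vale.Agent.N209T.OldTargets

open Vale.Agent.N209T MeasureTheory

/-- **The Siegel-Yao Conjecture A, and ball packings of other targets.**
(1) Conjecture A.
(2) A product of ellipsoids one of whose factors has three equal axes `a j₀`: if the balls are
smaller than half of that axis, or some axis is at most half of it, the only obstructions are
non-squeezing and the volume.
(3) A torus, or a punctured torus, times a product of ellipsoids: the only obstructions are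
non-squeezing and the volume. -/
theorem oldResult :
    (∀ n k : ℕ, 3 ≤ n → 1 ≤ k → ∀ (R : ℝ) (r : Fin k → ℝ), 0 < R → (∀ i, 0 < r i) →
      (Packs (interior (B n R)) r ↔ ∑ i, r i ^ n < R ^ n ∧ ∀ i j, i < j → r i + r j < R)) ∧
    (∀ (n k : ℕ) (blk : Fin n → ℕ) (a : Fin n → ℝ) (r : Fin k → ℝ) (j₀ : Fin n),
      (∀ j, 0 < a j) → (∀ i, 0 < r i) →
      3 ≤ (Finset.univ.filter fun j => blk j = blk j₀ ∧ a j = a j₀).card →
      ((∀ i, 2 * r i < a j₀) ∨ ∃ j, 2 * a j ≤ a j₀) →
      (Packs (Ell blk a) r ↔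
        (∀ i j, r i < a j) ∧ ∑ i, volume (B n (r i)) < volume (Ell blk a))) ∧
    (∀ (d k : ℕ) (blk : Fin d → ℕ) (a : Fin d → ℝ) (r : Fin k → ℝ) (v w : V (d + 1)) (A : ℝ),
      1 ≤ d → (∀ j, 0 < a j) → (∀ i, 0 < r i) → tail v = 0 → tail w = 0 →
      A = v (.inl 0) * w (.inr 0) - v (.inr 0) * w (.inl 0) → 0 < A →
      List.TFAE
        [PacksMod (AddSubgroup.closure {v, w}) {z | tail z ∈ Ell blk a} r,
         PacksMod (AddSubgroup.closure {v, w})
           {z | tail z ∈ Ell blk a ∧ ∀ l ∈ AddSubgroup.closure {v, w}, act (z - l) 0 ≠ 0} r,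
         (∀ i j, r i < a j) ∧
           ∑ i, volume (B (d + 1) (r i)) < ENNReal.ofReal A * volume (Ell blk a)]) :=
  ⟨ball_iff, ell_iff, torus_iff⟩

end Vale.Agent.N209T.OldTargets
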